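import Vale.Agent.P273SX.Cls
import Vale.Agent.P273SW.Defs
import Vale.Agent.P273.H728.StrSum

/-!
# P273S, rows XI and CF: the cells of the strata
-/

noncomputable section

namespace Vale.Agent.P273SX

open Set Filter Topology MeasureTheory Vale.Agent.P273 H183 H837 H728 H93 H95 H732
open Vale.Agent.P273SW
open scoped ContDiff

universe u

variable {Z : Type u} {cl : ∀ m, Fam H93.Mk m → (Fin m → ℂ) → Z}

theorem base_eq (p q : Fin 7) (hp : p.1 ≤ q.1) (σ : Bool → Equiv.Perm (Fin 7)) (e : Bool → Bool) :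
    (coordE e p q hp σ).base = bs (sm e) := by
  rw [base_coordE]
  ext b
  simp only [baseE, bs, sm, decide_eq_true_eq, mem_ofPred_eq]

/-- **The value on a cell is the value on a family of the region.** -/
theorem cell_cls (hF : Mor cl) (p q : Fin 7) (hp : p.1 ≤ q.1) (hq : q.1 ≤ 6)
    (σ : Bool → Equiv.Perm (Fin 7)) (e : Bool → Bool) {C : Fam H93.Mk 8} (hC : C.IsStable)
    (hg : (coordE e p q hp σ).IsGlued C) (c : H728.Cell) {ζ : Fin 8 → ℂ} (h : ζ ∈ D0.Om (sm e) c) :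
    ∃ C' : Fam H95.L 17, H888.Real (H680.k17 (rg (Tc hp hq σ e c))) (rg (Tc hp hq σ e c)).psi
      (Sc σ c) ((rg (Tc hp hq σ e c)).sht (Sc σ c)) C' ∧
      (H680.k17 _).symm (scl _ (iot hp hq σ e c ζ)) ∈ C'.B ∧
      cl 8 C (D0.kap (sm e) c ζ) = cl 17 C' ((H680.k17 _).symm (scl _ (iot hp hq σ e c ζ))) := by
  have hbase := base_eq p q hp σ e
  let φ : (Fin 8 → ℂ) → (rg (Tc hp hq σ e c)).Sp := fun b =>
    sclC _ (iot hp hq σ e c (D0.kin (sm e) c b))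
  have hφ : ∀ ζ' ∈ D0.Om (sm e) c, φ (D0.kap (sm e) c ζ') = scl _ (iot hp hq σ e c ζ') := by
    intro ζ' h'
    simp only [φ]
    rw [TD.kin_kap h', sclC_apply]
  have hφan : ∀ ζ' ∈ D0.Om (sm e) c, AnalyticAt ℂ φ (D0.kap (sm e) c ζ') := by
    intro ζ' h'
    exact ((sclC _).comp (iot hp hq σ e c)).analyticAt _ |>.comp (TD.kin_an h')
  rw [← hφ ζ h]
  refine ofAt_cls hF (Tc hp hq σ e c) (Sc σ c) (H720.farOk hp hq σ e c)
    (labE p q hp hq σ e c) hC hg (U := D0.kap (sm e) c '' D0.Om (sm e) c) (A := H728.AM c)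
    TD.isOpen_image ?_ ?_ ?_ ?_ ?_ ?_ ?_ ⟨ζ, h, rfl⟩
  · rintro _ ⟨ζ', h', rfl⟩
    rw [hbase]
    exact TD.kap_mem h'
  · rintro _ ⟨ζ', h', rfl⟩
    exact hφan ζ' h'
  · rintro _ ⟨ζ', h', rfl⟩
    rw [hφ ζ' h']
    exact H720.iot_dom hp hq σ e (H720.Om_subset_Kc _ h')
  · rintro _ ⟨ζ', h', rfl⟩ g
    rw [hφ ζ' h']
    exact gap_zero hp hq σ e c h' g
  · rintro _ ⟨ζ', h', rfl⟩ v i j
    exact AM_an c v i j _
  · rintro _ ⟨ζ', h', rfl⟩ v
    exact AM_det c v fun j => ((TD.kap_mem h').1 j).1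
  · rintro _ ⟨ζ', h', rfl⟩ y
    rw [hφ ζ' h']
    rcases y with y | x
    · exact pt_edge p q hp hq σ e c _ _ y
    · exact pt_leg p q hp hq σ e c h' x

/-- **XI.** `Φ` is a map with the property of the row `WPHI`. -/
theorem xi_cell (hF : Mor cl) {Φ : WW → Z}
    (hΦ : ∀ (R : Region) (S : L → Bool) (C : Fam L 17), H888.Far R S →
      H888.Real (H680.k17 R) R.psi S (R.sht S) C → ∀ p ∈ R.dom S, (H680.k17 R).symm p ∈ C.B →
      ∀ h : eR R S p ∈ WW, Φ ⟨eR R S p, h⟩ = cl 17 C ((H680.k17 R).symm p))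
    (p q : Fin 7) (hp : p.1 ≤ q.1) (hq : q.1 ≤ 6)
    (σ : Bool → Equiv.Perm (Fin 7)) (e : Bool → Bool) {C : Fam H93.Mk 8} (hC : C.IsStable)
    (hg : (coordE e p q hp σ).IsGlued C) (c : H728.Cell) {ζ : Fin 8 → ℂ} (h : ζ ∈ D0.Om (sm e) c)
    (hw : eR (rg (Tc hp hq σ e c)) (Sc σ c) (scl _ (iot hp hq σ e c ζ)) ∈ WW) :
    Φ ⟨eR (rg (Tc hp hq σ e c)) (Sc σ c) (scl _ (iot hp hq σ e c ζ)), hw⟩ =
      cl 8 C (D0.kap (sm e) c ζ) := by
  obtain ⟨C', h1, h2, h3⟩ := cell_cls hF p q hp hq σ e hC hg c h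
  rw [h3]
  exact hΦ _ _ C' (H720.farOk hp hq σ e c) h1 _
    (H720.iot_dom hp hq σ e (H720.Om_subset_Kc _ h)) h2 hw

/-- The density of the pull-back on a cell. -/
theorem cell_dens {X : Ext} {om : Amb → Alt 16 Amb}
    (hX : ∀ R S, H888.Far R S → ∀ p ∈ R.dom S,
      X.H R S p = (om (eR R S p)).compContinuousLinearMap (fderiv ℝ (eR R S) p))
    (hR : ∀ R S, H888.Far R S → ∀ p ∈ R.dom S, DifferentiableAt ℝ (eR R S) p)
    {p q : ℕ} (hp : p ≤ q) (hq : q ≤ 6) (σ : Bool → Equiv.Perm (Fin 7)) (e : Bool → Bool)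
    (c : H728.Cell) {f : (Fin 8 → ℂ) → Amb}
    (hf : ∀ ζ ∈ D0.Om (sm e) c, f (D0.kap (sm e) c ζ) =
      eR (rg (Tc hp hq σ e c)) (Sc σ c) (scl _ (iot hp hq σ e c ζ)))
    {ζ : Fin 8 → ℂ} (h : ζ ∈ D0.Om (sm e) c) :
    |(fderiv ℝ (D0.kap (sm e) c) ζ).det| • om (f (D0.kap (sm e) c ζ))
      (fun a : Fin (8 * 2) => fderiv ℝ f (D0.kap (sm e) c ζ) (fr a)) = val X hp hq σ e c ζ := by
  set R := rg (Tc hp hq σ e c) with hRdef
  have hS : H888.Far R (Sc σ c) := H720.farOk hp hq σ e c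
  have hdom := H720.iot_dom hp hq σ e (H720.Om_subset_Kc _ h)
  have hd := TD.kap_diff h
  let A : (Fin 8 → ℂ) →L[ℝ] R.Sp := (scl R).comp (ior hp hq σ e c)
  have hA : A ζ = scl R (iot hp hq σ e c ζ) := rfl
  have hE : HasFDerivAt (fun ζ => eR R (Sc σ c) (A ζ))
      ((fderiv ℝ (eR R (Sc σ c)) (A ζ)).comp A) ζ :=
    (hR R _ hS _ hdom).hasFDerivAt.comp ζ A.hasFDerivAt
  -- `f` is differentiable
  have hev : f =ᶠ[𝓝 (D0.kap (sm e) c ζ)] fun b => eR R (Sc σ c) (A (D0.kin (sm e) c b)) := by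
    filter_upwards [TD.isOpen_image.mem_nhds ⟨ζ, h, rfl⟩] with b hb
    obtain ⟨ζ', h', rfl⟩ := hb
    rw [TD.kin_kap h']
    exact hf ζ' h'
  have hdf : DifferentiableAt ℝ f (D0.kap (sm e) c ζ) := by
    refine DifferentiableAt.congr_of_eventuallyEq ?_ hev
    have h1 : DifferentiableAt ℝ (D0.kin (sm e) c) (D0.kap (sm e) c ζ) :=
      (TD.kin_an h).differentiableAt.restrictScalars ℝ
    have h2 : DifferentiableAt ℝ (fun ζ => eR R (Sc σ c) (A ζ))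
        (D0.kin (sm e) c (D0.kap (sm e) c ζ)) := by
      rw [TD.kin_kap h]
      exact hE.differentiableAt
    exact h2.comp _ h1
  have hcomp : fderiv ℝ (fun ζ => f (D0.kap (sm e) c ζ)) ζ =
      (fderiv ℝ f (D0.kap (sm e) c ζ)).comp (fderiv ℝ (D0.kap (sm e) c) ζ) :=
    fderiv_comp ζ hdf (hd.restrictScalars ℝ)
  have hev2 : (fun ζ => f (D0.kap (sm e) c ζ)) =ᶠ[𝓝 ζ] fun ζ => eR R (Sc σ c) (A ζ) := by
    filter_upwards [TD.isOpen_Om.mem_nhds h] with ζ' h'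
    exact hf ζ' h'
  have hfd : (fderiv ℝ f (D0.kap (sm e) c ζ)).comp (fderiv ℝ (D0.kap (sm e) c) ζ) =
      (fderiv ℝ (eR R (Sc σ c)) (A ζ)).comp A := by
    rw [← hcomp, hev2.fderiv_eq, hE.fderiv]
  have h1 := abs_det_smul hd ((om (f (D0.kap (sm e) c ζ))).compContinuousLinearMap
    (fderiv ℝ f (D0.kap (sm e) c ζ)) : (Fin 8 → ℂ) [⋀^Fin (8 * 2)]→L[ℝ] ℝ)
  refine Eq.trans h1 ?_
  unfold val
  have h5 := hX R _ hS _ hdom
  rw [FW_apply]
  refine Eq.trans ?_ (congrArg (fun w : Alt 16 R.Sp => w fun i => A (fr i)) h5).symm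
  rw [hf ζ h]
  change om _ (fun a => fderiv ℝ f (D0.kap (sm e) c ζ) (fderiv ℝ (D0.kap (sm e) c) ζ (fr a))) =
    om _ (fun a => fderiv ℝ (eR R (Sc σ c)) (A ζ) (A (fr a)))
  congr 1
  funext a
  exact congrArg (fun L : (Fin 8 → ℂ) →L[ℝ] Amb => L (fr a)) hfd

theorem sum_with_congr {α : Type} [Fintype α] (P : α → Prop) [DecidablePred P] {f g : α → ℝ}
    (h : ∀ c, P c → f c = g c) : ∑ c with P c, f c = ∑ c with P c, g c :=
  Finset.sum_congr rfl fun c hc => h c (Finset.mem_filter.1 hc).2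

/-- **CF.** The integral of the pull-back over the stratum is the sum of the cell integrals (the
right side is `P273SC.cellSum X hp hq σ e`). -/
theorem cells_pull {X : Ext} {om : Amb → Alt 16 Amb}
    (hX : ∀ R S, H888.Far R S → ∀ p ∈ R.dom S,
      X.H R S p = (om (eR R S p)).compContinuousLinearMap (fderiv ℝ (eR R S) p))
    (hR : PR) (p q : Fin 7) (hp : p.1 ≤ q.1) (hq : q.1 ≤ 6) (σ : Bool → Equiv.Perm (Fin 7))
    (e : Bool → Bool) {f : (Fin 8 → ℂ) → Amb}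
    (hf : ∀ c : H728.Cell, c.Ok (sm e) → ∀ ζ ∈ D0.Om (sm e) c, f (D0.kap (sm e) c ζ) =
      eR (rg (Tc hp hq σ e c)) (Sc σ c) (scl _ (iot hp hq σ e c ζ))) :
    ∫ y in (coordE e p q hp σ).base, om (f y) (fun a : Fin (8 * 2) => fderiv ℝ f y (fr a)) =
      ∑ c : H728.Cell with c.Ok (sm e), ∫ ζ in D0.Om (sm e) c, val X hp hq σ e c ζ := by
  have hR' : ∀ R S, H888.Far R S → ∀ p ∈ R.dom S, DifferentiableAt ℝ (eR R S) p := by
    intro R S hS p hp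
    have h1 := (hR R S hS).1
    exact (h1.sm.contDiffAt (h1.opn.mem_nhds hp)).differentiableAt (by simp)
  rw [base_eq]
  have h1 : ∀ c : H728.Cell, c.Ok (sm e) → EqOn (fun ζ => |(fderiv ℝ (D0.kap (sm e) c) ζ).det| •
      (fun y => om (f y) (fun a : Fin (8 * 2) => fderiv ℝ f y (fr a))) (D0.kap (sm e) c ζ))
      (val X hp hq σ e c) (D0.Om (sm e) c) :=
    fun c hc ζ hζ => cell_dens hX hR' hp hq σ e c (hf c hc) hζ
  have h2 := D0.cells_int (sm e) (fun y => om (f y) (fun a : Fin (8 * 2) => fderiv ℝ f y (fr a)))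
    fun c hc => (H720.val_int hp hq σ e X (sm e)).congr_fun (h1 c hc).symm
      TD.isOpen_Om.measurableSet
  refine h2.2.trans (sum_with_congr _ fun c hc => ?_)
  exact setIntegral_congr_fun TD.isOpen_Om.measurableSet (h1 c hc)

end Vale.Agent.P273SX

end
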