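import Vale.Agent.P273.H395.Comp3
import Vale.Agent.P273.H591.StartEx
import Vale.Agent.P273SZ.Defs

/-!
# P273S, row XI: natural functions on the bases of the families of the strata

`cls` is any function on the bases of the stable families which is compatible with the morphisms.
Its values on a glued family are its values on every family with the same normalisation data.
-/

noncomputable section

namespace Vale.Agent.P273SX

open Set Filter Topology Vale.Agent.P273 H183 H837 H395 H728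

universe u

variable {L V E V' E' : Type} {m n m' : ℕ} {Z : Type u}

/-- `cls` is compatible with the morphisms of stable families. -/
def Mor {L : Type} (cls : ∀ m, Fam L m → (Fin m → ℂ) → Z) : Prop :=
  ∀ m m' (C : Fam L m) (C' : Fam L m') φ Φ, C.IsStable → C'.IsStable → IsMor C' C φ Φ →
    ∀ b ∈ C'.B, cls m' C' b = cls m C (φ b)

variable {cls : ∀ m, Fam L m → (Fin m → ℂ) → Z}

theorem cls_pullback [Finite V] {C : Fam L m} {T : Fam L m'}
    {φ : (Fin m' → ℂ) → Fin m → ℂ} {h : (E × Bool) ⊕ L → V}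
    {z : (E × Bool) ⊕ L → (Fin m' → ℂ) → OnePoint ℂ}
    {gT : V → OnePoint ℂ → (Fin m' → ℂ) → T.X} {gC : V → OnePoint ℂ → (Fin m' → ℂ) → C.X}
    (hTs : T.IsStable) (hCs : C.IsStable)
    (hT : Norm T T.B id h z gT) (hC : Norm C T.B φ h z gC) (hs : StrongHol T gT)
    (hF : Mor cls) : ∀ b ∈ T.B, cls m' T b = cls m C (φ b) := by
  obtain ⟨Φ, hΦ, -⟩ := exists_mor hTs.1 hTs.2.1 hTs.2.2.1
    (continuous_pi_of_isChart hTs.2.2.2.2.1) hT hC hs
  exact hF m m' C T φ Φ hCs hTs hΦ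

theorem cls_of_norm [Finite V] {h : (E × Bool) ⊕ L → V} {c : Coord h m} (hs : HasStrong c)
    {C : Fam L m} (hCs : C.IsStable) (hC : c.IsGlued C) {D : Fam L n} (hD : D.IsStable)
    {U : Set (Fin m → ℂ)} (hU : IsOpen U) (hUB : U ⊆ c.base) {φ : (Fin m → ℂ) → Fin n → ℂ}
    {z : (E × Bool) ⊕ L → (Fin m → ℂ) → OnePoint ℂ} {g : V → OnePoint ℂ → (Fin m → ℂ) → D.X}
    (N : Norm D U φ h z g) {A : V → (Fin m → ℂ) → Matrix (Fin 2) (Fin 2) ℂ}
    (hA : ∀ b ∈ U, ∀ v i j, AnalyticAt ℂ (fun b => A v b i j) b)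
    (hd : ∀ b ∈ U, ∀ v, (A v b).det ≠ 0)
    (hz : ∀ b ∈ U, ∀ y, pt b (c.c y) = mob (A (h y) b) (z y b)) (hF : Mor cls) :
    ∀ b ∈ U, cls m C b = cls n D (φ b) := by
  intro b hb
  obtain ⟨T, gT, hT, hTB, hTn, hTh⟩ := hs
  obtain ⟨gC, hgC⟩ := Norm.of_isGlued hC
  have hTn' : Norm T T.B id h (fun y b => pt b (c.c y)) gT := hTB.symm ▸ hTn
  have h1 : cls m T b = cls m C b :=
    cls_pullback (m := m) (m' := m) hT hCs hTn'
      (hTB.symm ▸ hgC : Norm C T.B id h (fun y b => pt b (c.c y)) gC) hTh hF b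
      (hTB.symm ▸ hUB hb)
  have hUT : U ⊆ (pf T hT).B := fun b hb => by
    change b ∈ T.B
    rw [hTB]; exact hUB hb
  obtain ⟨x₀⟩ := exists_pt T hT hU hUT ⟨b, hb⟩
  obtain ⟨hR, hRs⟩ := res_norm (hC := hT) (hB' := hU) (hB := hUT) (x₀ := x₀) hTn' hTh
  have h3 : cls m (res T hT hU hUT x₀) b = cls m T b :=
    hF m m T (res T hT hU hUT x₀) id _ hT res_stable res_mor b hb
  have h4 := cls_pullback (T := res T hT hU hUT x₀) res_stable hD hR
    (Norm.mob N hU hA hd (fun b hb y => hz b hb y)) hRs hF b hb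
  rw [← h1, ← h3, h4]

/-- Two glued families of isomorphic graphs. -/
theorem cls_cmap [Finite V] {h : (E × Bool) ⊕ L → V} {h' : (E' × Bool) ⊕ L → V'}
    (i : GIso h h') (c : Coord h m) (c' : Coord h' m') (hs : HasStrong c)
    {C : Fam L m} {C' : Fam L m'} (hCs : C.IsStable) (hC's : C'.IsStable) (hC : c.IsGlued C)
    (hC' : c'.IsGlued C') (hF : Mor cls) {b : Fin m → ℂ} (hb : b ∈ c.base) :
    cls m C b = cls m' C' (c.cmap i c' b) := by
  obtain ⟨T, gT, hT, hTB, hTn, hTh⟩ := hs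
  have ho : IsOpen c.base := hTB ▸ hT.1
  obtain ⟨g, hg⟩ := Norm.of_isGlued hC
  obtain ⟨g', hg'⟩ := Norm.of_isGlued hC'
  have hb' : b ∈ T.B := hTB.symm ▸ hb
  have hTn' : Norm T T.B id h (fun y b => pt b (c.c y)) gT := hTB.symm ▸ hTn
  have h1 := cls_pullback (m := m) (m' := m) hT hCs hTn'
    (hTB.symm ▸ hg : Norm C T.B id h (fun y b => pt b (c.c y)) g) hTh hF b hb'
  have h2 := cls_pullback (m := m') (m' := m) hT hC's hTn'
    (hTB.symm ▸ norm_cmap i c c' ho hg' : Norm C' T.B (c.cmap i c') h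
      (fun y b => pt b (c.c y)) _) hTh hF b hb'
  rw [← h2, h1]
  rfl

/-! ### Cross ratios -/

open P273SZ in
theorem df_eq (a b : OnePoint ℂ) : df a b = br (lft a) (lft b) := by
  induction a using OnePoint.rec <;> induction b using OnePoint.rec <;> simp [df, br]

theorem lft_proj {u : ℂ × ℂ} (hu : u ≠ 0) :
    ∃ s : ℂ, s ≠ 0 ∧ lft (H837.proj u) = (s * u.1, s * u.2) := by
  by_cases h : u.2 = 0
  · have h1 : u.1 ≠ 0 := fun h' => hu (Prod.ext h' h)
    refine ⟨u.1⁻¹, inv_ne_zero h1, ?_⟩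
    rw [proj_eq_infty.2 h, lft_infty, h, mul_zero, inv_mul_cancel₀ h1]
  · refine ⟨u.2⁻¹, inv_ne_zero h, ?_⟩
    have h2 : H837.proj u = ((u.1 / u.2 : ℂ) : OnePoint ℂ) := by simp [H837.proj, h]
    rw [h2, lft_coe, inv_mul_cancel₀ h, div_eq_inv_mul]

open P273SZ in
theorem df_mob {M : Matrix (Fin 2) (Fin 2) ℂ} (hM : M.det ≠ 0) :
    ∃ s : OnePoint ℂ → ℂ, (∀ a, s a ≠ 0) ∧
      ∀ a b, df (mob M a) (mob M b) = s a * s b * M.det * df a b := by
  have h1 : ∀ a, ∃ s : ℂ, s ≠ 0 ∧ lft (mob M a) =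
      (s * (H837.act M (lft a)).1, s * (H837.act M (lft a)).2) :=
    fun a => lft_proj (act_ne hM (lft_ne a))
  choose s hs hs' using h1
  refine ⟨s, hs, fun a b => ?_⟩
  rw [df_eq, df_eq, hs', hs', mul_assoc, ← br_act]
  simp only [br]
  ring

open P273SZ in
/-- The cross ratios do not change under Moebius maps of the components. -/
theorem cr_mob {Y Y' : Type} {h : Y → V} {h' : Y' → V'} {w : Y → OnePoint ℂ}
    {w' : Y' → OnePoint ℂ} {q : Quad h} {q' : Quad h'} {M : Matrix (Fin 2) (Fin 2) ℂ}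
    (hM : M.det ≠ 0) (hw : ∀ k, w' (q'.1 k) = mob M (w (q.1 k))) : cr h' w' q' = cr h w q := by
  obtain ⟨s, hs, hs'⟩ := df_mob hM
  unfold cr
  simp only [hw, hs']
  congr 1
  have hk : s (w (q.1 0)) * s (w (q.1 1)) * s (w (q.1 2)) * s (w (q.1 3)) * M.det * M.det ≠ 0 :=
    mul_ne_zero (mul_ne_zero (mul_ne_zero (mul_ne_zero (mul_ne_zero (hs _) (hs _)) (hs _))
      (hs _)) hM) hM
  refine Eq.trans ?_ (mul_div_mul_left _ _ hk)
  congr 1 <;> ring

open P273SZ in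
/-- The quadruple of a coordinate. -/
def quad {h : (E × Bool) ⊕ L → V} (c : Coord h m) (j : Fin m) : Quad h :=
  ⟨![c.cst (h (c.crd j)) 0, c.cst (h (c.crd j)) 1, c.cst (h (c.crd j)) 2, c.crd j], by
    have key : Function.Injective (c.c ∘
        ![c.cst (h (c.crd j)) 0, c.cst (h (c.crd j)) 1, c.cst (h (c.crd j)) 2, c.crd j]) := by
      intro a b hab
      fin_cases a <;> fin_cases b <;> simp [c.cst_c, c.crd_c] at hab ⊢
    exact key.of_comp, by
    intro a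
    fin_cases a <;> simp [c.cst_h]⟩

open P273SZ in
theorem cr_quad {h : (E × Bool) ⊕ L → V} (c : Coord h m) (b : Fin m → ℂ) (j : Fin m) :
    cr h (fun y => pt b (c.c y)) (quad c j) = (b j : ℂ) := by
  unfold cr
  simp [quad, c.cst_c, c.crd_c, pt, df]

open P273SZ in
/-- The change of coordinates is determined by the cross ratios. -/
theorem eq_cmap_of_cr {h : (E × Bool) ⊕ L → V} {h' : (E' × Bool) ⊕ L → V'} (i : GIso h h')
    (c : Coord h m) (c' : Coord h' m') {b : Fin m → ℂ} (hb : b ∈ c.base) {b' : Fin m' → ℂ}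
    (hcr : ∀ (q : Quad h) (q' : Quad h'), (∀ k, q'.1 k = i.Q (q.1 k)) →
      cr h (fun y => pt b (c.c y)) q = cr h' (fun y => pt b' (c'.c y)) q') :
    b' = c.cmap i c' b := by
  funext j
  have hinj : Function.Injective i.symm.Q := fun a a' e => by
    rw [← i.Q_symm a, e, i.Q_symm]
  let q : Quad h := ⟨fun k => i.symm.Q ((quad c' j).1 k), hinj.comp (quad c' j).2.1, fun k => by
    rw [i.symm.h_Q, i.symm.h_Q, (quad c' j).2.2 k]⟩
  have hq : ∀ k, (quad c' j).1 k = i.Q (q.1 k) := fun k => (i.Q_symm _).symm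
  have h1 := hcr q (quad c' j) hq
  have h2 : cr h' (fun y => pt (c.cmap i c' b) (c'.c y)) (quad c' j) =
      cr h (fun y => pt b (c.c y)) q := by
    refine cr_mob (M := c.cmat i c' (h (q.1 0)) b) (Coord.det_cmat i c c' hb _) fun k => ?_
    rw [hq k, Coord.pt_cmap i c c' hb, q.2.2 k]
  rw [cr_quad] at h1 h2
  exact OnePoint.coe_injective (h1.symm.trans h2.symm)

open P273SZ in
/-- **IND.** Points of the strata of isomorphic graphs with the same cross ratios have the same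
value. -/
theorem cls_of_cr [Finite V] [Finite E] [Finite L] {h : (E × Bool) ⊕ L → V}
    {h' : (E' × Bool) ⊕ L → V'} (i : GIso h h')
    (hl : ∀ y : E × Bool, h (Sum.inl (H768.fl y)) ≠ h (Sum.inl y))
    (c : Coord h m) (c' : Coord h' m') {C : Fam L m} {C' : Fam L m'} (hCs : C.IsStable)
    (hC's : C'.IsStable) (hC : c.IsGlued C) (hC' : c'.IsGlued C') (hF : Mor cls)
    {b : Fin m → ℂ} (hb : b ∈ c.base) {b' : Fin m' → ℂ}
    (hcr : ∀ (q : Quad h) (q' : Quad h'), (∀ k, q'.1 k = i.Q (q.1 k)) →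
      cr h (fun y => pt b (c.c y)) q = cr h' (fun y => pt b' (c'.c y)) q') :
    cls m C b = cls m' C' b' := by
  rw [eq_cmap_of_cr i c c' hb hcr]
  exact cls_cmap i c c' (hasStrong c hl hCs hC) hCs hC's hC hC' hF hb

/-! ### The families of the regions -/

variable {cl : ∀ m, Fam H93.Mk m → (Fin m → ℂ) → Z}

theorem cls_link [Finite V] [Finite E] {T : H93.RB} {S : H93.Mk → Bool}
    {h : (E × Bool) ⊕ H93.Mk → V} {nm : V → Bool ⊕ (Fin 3 × ℕ)} {ge : E → Fin 3 × ℕ}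
    (H : Lab T h nm ge) {c : Coord h m} {C : Fam H93.Mk m} (hCs : C.IsStable) (hC : c.IsGlued C)
    {U : Set (Fin m → ℂ)} {φ : (Fin m → ℂ) → (rg T).Sp}
    {A : V → (Fin m → ℂ) → Matrix (Fin 2) (Fin 2) ℂ} (hUB : U ⊆ c.base)
    (hA : ∀ b ∈ U, ∀ v i j, AnalyticAt ℂ (fun b => A v b i j) b)
    (hd : ∀ b ∈ U, ∀ v, (A v b).det ≠ 0)
    (hz : ∀ b ∈ U, ∀ y, pt b (c.c y) = mob (A (h y) b) (zz T S ge (φ b) y))
    {h' : (E' × Bool) ⊕ H93.Mk → V'} {nm' : V' → Bool ⊕ (Fin 3 × ℕ)}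
    {ge' : E' → Fin 3 × ℕ} (H' : Lab T h' nm' ge') (hs' : Function.Surjective h')
    {D : Fam H93.Mk n} (hD : D.IsStable) {ψ : (Fin m → ℂ) → Fin n → ℂ} {U' : Set (Fin m → ℂ)}
    (hU' : IsOpen U') (hUU : U' ⊆ U) {g' : V' → OnePoint ℂ → (Fin m → ℂ) → D.X}
    (N : Norm D U' ψ h' (fun y b => zz T S ge' (φ b) y) g') (hF : Mor cl) :
    ∀ b ∈ U', cl m C b = cl n D (ψ b) := by
  obtain ⟨pV, pE, h1, h2, h3⟩ := lab_iso H H' (surj_of_coord c) hs'
  have N' : Norm (H188.rel (Equiv.refl H93.Mk) D) U' ψ h (fun y b => zz T S ge (φ b) y)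
      (fun v w b => g' (pV v) w b) := by
    refine H188.Norm.reindex N pV (Equiv.refl _) (pE.prodCongr (Equiv.refl Bool))
      (fun e s => rfl) h3 fun y b _ => ?_
    rcases y with ⟨e, s⟩ | x
    · change H728.hz T (ge e).1 (ge e).2 s = H728.hz T (ge' (pE e)).1 (ge' (pE e)).2 s
      rw [h2]
    · rfl
  exact cls_of_norm (hasStrong c (lab_no_loop H) hCs hC) hCs hC (D := D) hD hU' (hUU.trans hUB) N'
    (fun b hb => hA b (hUU hb)) (fun b hb => hd b (hUU hb)) (fun b hb => hz b (hUU hb)) hF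

/-- **The value on a stratum is the value on a family of the region.** -/
theorem ofAt_cls (hF : Mor cl) (T : H93.RB) (S : H93.Mk → Bool)
    (hS : ∀ x, S x = true → (T.pl x).isRight = true) [Finite V] [Finite E]
    {h : (E × Bool) ⊕ H93.Mk → V} {nm : V → Bool ⊕ (Fin 3 × ℕ)} {ge : E → Fin 3 × ℕ}
    (H : Lab T h nm ge) {c : Coord h m} {C : Fam H93.Mk m} (hCs : C.IsStable) (hC : c.IsGlued C)
    {U : Set (Fin m → ℂ)} {φ : (Fin m → ℂ) → (rg T).Sp}
    {A : V → (Fin m → ℂ) → Matrix (Fin 2) (Fin 2) ℂ} (hU : IsOpen U) (hUB : U ⊆ c.base)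
    (hφ : ∀ b ∈ U, AnalyticAt ℂ φ b) (hdom : ∀ b ∈ U, φ b ∈ (rg T).dom S)
    (hgap : ∀ b ∈ U, ∀ g : (rg T).Gap, (φ b).1 g = 0 ↔ (g.2 : ℕ) ∈ T.B g.1)
    (hA : ∀ b ∈ U, ∀ v i j, AnalyticAt ℂ (fun b => A v b i j) b)
    (hd : ∀ b ∈ U, ∀ v, (A v b).det ≠ 0)
    (hz : ∀ b ∈ U, ∀ y, pt b (c.c y) = mob (A (h y) b) (zz T S ge (φ b) y))
    {b : Fin m → ℂ} (hb : b ∈ U) :
    ∃ C' : Fam H95.L 17, H888.Real (H680.k17 (rg T)) (rg T).psi S ((rg T).sht S) C' ∧
      (H680.k17 (rg T)).symm (φ b) ∈ C'.B ∧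
      cl m C b = cl 17 C' ((H680.k17 (rg T)).symm (φ b)) := by
  obtain ⟨f, hf⟩ : ∃ f : Fin 3 → ℕ, ∀ k, f k + 1 = (T.B k).card :=
    ⟨fun k => (T.B k).card - 1, fun k => by
      have := card_pos' T k
      simp only
      omega⟩
  obtain ⟨C', hR, hbC, U', g', hU', hbU', hUU, N⟩ := finEx_of_start H591.startEx T S hS m U φ hU
    hφ hdom hgap b hb f hf (sep_of H (hUB hb) (hz b hb) (H395.lab_end hf) (H395.gr_surj _))
  refine ⟨C', hR, hbC, ?_⟩
  have N' : Norm C' U' (fun b => (H680.k17 (rg T)).symm (φ b))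
      (H228.gr f fun x => H228.loc f (T.comp x)) (fun y b => zz T S Subtype.val (φ b) y) g' := by
    have e : (fun (y : (H228.EC f × Bool) ⊕ H93.Mk) b => zz T S Subtype.val (φ b) y) =
        Sum.elim (H228.zE f fun k _ => (H95.ctr k : OnePoint ℂ)) fun x b => mz T S (φ b) x := by
      funext y b
      exact H395.zz_end hf S φ y b
    rw [e]
    exact N
  exact cls_link H hCs hC hUB hA hd hz (H395.lab_end hf) (H395.gr_surj _) hR.stable hU' hUU N' hF
    b hbU'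

end Vale.Agent.P273SX

end
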