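import Vale.Agent.P273SX.Cell
import Vale.Agent.P273SZ.IF

/-!
# P273S: the rows XIC and CF
-/

noncomputable section

namespace Vale.Agent.P273SX

open Vale.Agent.P273SZ Vale.Agent.P273SW

universe u

/-- **XIC.** -/
theorem xic : XIC.{u} := fun _ _ _ hn Φ hΦ p q hp hq σ e _ hC hg c _ hζ h =>
  xi_cell hn.mor (Φ := Φ) hΦ p q hp hq σ e hC hg c hζ h

/-- **CF.** -/
theorem cf (hR : PR) : CF := fun _ _ hX p q hp hq σ e _ hf =>
  cells_pull hX hR p q hp hq σ e hf

end Vale.Agent.P273SX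

end
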